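import Vale.Agent.P225.Final

/-! A complete Riemannian metric of nonnegative Ricci curvature on `ℝⁿ` with more harmonic
functions of polynomial growth of integer order `k` than Euclidean space. -/

open Vale.Agent.P255 Vale.Agent.P225

theorem Vale.Agent.Results.P225.Counter.result :
    ∃ n k : ℕ, 2 ≤ n ∧ 1 ≤ k ∧ ∃ g : Met (Fin n), IsMetric g ∧ Complete g ∧
      (∀ x v, 0 ≤ ric g x v v) ∧
      (((n + k - 1).choose k + (n + k - 2).choose (k - 1) : ℕ) : Cardinal) <
        Module.rank ℝ (harm g k) :=
  ⟨32, 4000, by norm_num, by norm_num,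
    final_icc (finSumFinEquiv (m := 16) (n := 16)).symm (Fintype.card_fin 32)⟩
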